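import Crest.Agent.Helper62.S0466.Defs

/-!
# S0466 — leaf DEL (helper5)

Deleting an edge of weight zero, and deleting the two ends of an edge of weight one:
`QQ_erase`, `PP_mono`, `WF_delPair`, `QQ_delPair`, `PP_delPair_lift`, with the names and
signatures of `Crest.Agent.Helper62.S0466.Blueprint`.
-/

set_option autoImplicit false
set_option linter.unusedSectionVars false
set_option linter.unusedVariables false

namespace Crest.Agent.Helper5.S0466

open Crest.Agent.Helper62.S0466

variable {V E : Type} [DecidableEq V] [DecidableEq E]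

/-- Deleting an edge of weight zero. -/
theorem QQ_erase {ends : E → V × V} {A : Finset V} {F : Finset E} {x : E → ℝ}
    (hx : x ∈ QQ ends A F) {e₀ : E} (h0 : x e₀ = 0) : x ∈ QQ ends A (F.erase e₀) := by
  obtain ⟨hx0, hxn, hxs, hxc⟩ := hx
  refine ⟨?_, hxn, ?_, ?_⟩
  · intro e he
    by_cases h : e = e₀
    · rw [h]; exact h0
    · exact hx0 e (fun heF => he (Finset.mem_erase.2 ⟨h, heF⟩))
  · intro w hw
    rw [← hxs w hw]
    unfold Crest.Agent.Helper62.S0466.star
    rw [Finset.filter_erase]
    exact Finset.sum_erase _ h0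
  · intro U hU hodd
    refine (hxc U hU hodd).trans (le_of_eq ?_)
    unfold cut
    rw [Finset.filter_erase]
    exact (Finset.sum_erase _ h0).symm

/-- More edges, bigger polytope. -/
theorem PP_mono {ends : E → V × V} {A : Finset V} {F F' : Finset E} (hFF : F' ⊆ F) :
    PP ends A F' ⊆ PP ends A F := by
  unfold PP
  refine convexHull_mono (Set.image_mono ?_)
  intro M hM
  exact ⟨hM.1.trans hFF, hM.2⟩

/-- Deleting the two ends of an edge keeps the graph well formed. -/
theorem WF_delPair {ends : E → V × V} {A : Finset V} {F : Finset E} (hWF : WF ends A F) (e₀ : E) :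
    WF ends (dVerts ends A e₀) (dEdges ends F e₀) := by
  intro e he
  unfold dEdges at he
  rw [Finset.mem_filter] at he
  obtain ⟨heF, h1, h2, h3, h4⟩ := he
  obtain ⟨ha, hb, hne⟩ := hWF e heF
  unfold dVerts
  refine ⟨?_, ?_, hne⟩
  · exact Finset.mem_erase.2 ⟨h3, Finset.mem_erase.2 ⟨h1, ha⟩⟩
  · exact Finset.mem_erase.2 ⟨h4, Finset.mem_erase.2 ⟨h2, hb⟩⟩

/-- membership in `dEdges`. -/
theorem mem_dEdges {ends : E → V × V} {F : Finset E} {e₀ e : E} :
    e ∈ dEdges ends F e₀ ↔ e ∈ F ∧ (ends e).1 ≠ (ends e₀).1 ∧ (ends e).2 ≠ (ends e₀).1 ∧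
      (ends e).1 ≠ (ends e₀).2 ∧ (ends e).2 ≠ (ends e₀).2 := by
  unfold dEdges; rw [Finset.mem_filter]

/-- membership in `dVerts`. -/
theorem mem_dVerts {ends : E → V × V} {A : Finset V} {e₀ : E} {w : V} :
    w ∈ dVerts ends A e₀ ↔ w ∈ A ∧ w ≠ (ends e₀).1 ∧ w ≠ (ends e₀).2 := by
  unfold dVerts
  rw [Finset.mem_erase, Finset.mem_erase]
  tauto

theorem not_mem_dEdges_self {ends : E → V × V} {F : Finset E} {e₀ : E} :
    e₀ ∉ dEdges ends F e₀ := by
  rw [mem_dEdges]
  intro h
  exact h.2.1 rfl

/-- If `x e₀ = 1` then every other edge of `F` touching an end of `e₀` has weight zero. -/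
theorem eq_zero_of_touch {ends : E → V × V} {A : Finset V} {F : Finset E} (hWF : WF ends A F)
    {x : E → ℝ} (hx : x ∈ QQ ends A F) {e₀ : E} (he₀ : e₀ ∈ F) (h1 : x e₀ = 1)
    {e : E} (heF : e ∈ F) (hne : e ≠ e₀) (hnd : e ∉ dEdges ends F e₀) : x e = 0 := by
  obtain ⟨hx0, hxn, hxs, hxc⟩ := hx
  obtain ⟨ha, hb, _⟩ := hWF e₀ he₀
  -- a vertex `w`, end of `e₀`, which `e` touches
  have key : ∀ w ∈ A, ((ends e₀).1 = w ∨ (ends e₀).2 = w) → ((ends e).1 = w ∨ (ends e).2 = w) →
      x e = 0 := by
    intro w hw hw0 hwe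
    have hs := hxs w hw
    have he0s : e₀ ∈ star ends F w := by
      unfold Crest.Agent.Helper62.S0466.star; exact Finset.mem_filter.2 ⟨he₀, hw0⟩
    have hes : e ∈ (star ends F w).erase e₀ := by
      refine Finset.mem_erase.2 ⟨hne, ?_⟩
      unfold Crest.Agent.Helper62.S0466.star; exact Finset.mem_filter.2 ⟨heF, hwe⟩
    rw [← Finset.add_sum_erase _ _ he0s, h1] at hs
    have hz : ∑ e' ∈ (star ends F w).erase e₀, x e' = 0 := by linarith
    exact (Finset.sum_eq_zero_iff_of_nonneg (fun i _ => hxn i)).1 hz e hes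
  rw [mem_dEdges] at hnd
  by_cases c1 : (ends e).1 = (ends e₀).1
  · exact key _ ha (Or.inl rfl) (Or.inl c1)
  by_cases c2 : (ends e).2 = (ends e₀).1
  · exact key _ ha (Or.inl rfl) (Or.inr c2)
  by_cases c3 : (ends e).1 = (ends e₀).2
  · exact key _ hb (Or.inr rfl) (Or.inl c3)
  by_cases c4 : (ends e).2 = (ends e₀).2
  · exact key _ hb (Or.inr rfl) (Or.inr c4)
  exact absurd ⟨heF, c1, c2, c3, c4⟩ hnd

/-- Sums over a filter of the reduced edge set agree with sums over the filter of `F`, when the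
predicate fails at `e₀`. -/
theorem sum_filter_dEdges {ends : E → V × V} {A : Finset V} {F : Finset E} (hWF : WF ends A F)
    {x : E → ℝ} (hx : x ∈ QQ ends A F) {e₀ : E} (he₀ : e₀ ∈ F) (h1 : x e₀ = 1)
    (P : E → Prop) [DecidablePred P] (hP : ¬ P e₀) :
    ∑ e ∈ (dEdges ends F e₀).filter P, (x - ind {e₀}) e = ∑ e ∈ F.filter P, x e := by
  have hsub : (dEdges ends F e₀).filter P ⊆ F.filter P := by
    intro e he
    rw [Finset.mem_filter] at he ⊢
    exact ⟨(mem_dEdges.1 he.1).1, he.2⟩
  have h2 : ∑ e ∈ (dEdges ends F e₀).filter P, (x - ind {e₀}) e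
      = ∑ e ∈ (dEdges ends F e₀).filter P, x e := by
    refine Finset.sum_congr rfl fun e he => ?_
    have hne : e ≠ e₀ := by
      rintro rfl
      exact not_mem_dEdges_self (Finset.mem_filter.1 he).1
    simp [ind, hne]
  rw [h2]
  refine Finset.sum_subset hsub fun e he hne => ?_
  rw [Finset.mem_filter] at he
  have hnd : e ∉ dEdges ends F e₀ := fun h => hne (Finset.mem_filter.2 ⟨h, he.2⟩)
  have hne0 : e ≠ e₀ := by
    rintro rfl
    exact hP he.2
  exact eq_zero_of_touch hWF hx he₀ h1 he.1 hne0 hnd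

/-- Deleting the two ends of an edge of weight one. -/
theorem QQ_delPair {ends : E → V × V} {A : Finset V} {F : Finset E} (hWF : WF ends A F)
    {x : E → ℝ} (hx : x ∈ QQ ends A F) {e₀ : E} (he₀ : e₀ ∈ F) (h1 : x e₀ = 1) :
    x - ind {e₀} ∈ QQ ends (dVerts ends A e₀) (dEdges ends F e₀) := by
  have hx' := hx
  obtain ⟨hx0, hxn, hxs, hxc⟩ := hx
  refine ⟨?_, ?_, ?_, ?_⟩
  · intro e he
    by_cases h : e = e₀
    · subst h; simp [ind, h1]
    · have : x e = 0 := by
        by_cases heF : e ∈ F
        · exact eq_zero_of_touch hWF hx' he₀ h1 heF h he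
        · exact hx0 e heF
      simp [ind, h, this]
  · intro e
    by_cases h : e = e₀
    · subst h; simp [ind, h1]
    · simp [ind, h, hxn e]
  · intro w hw
    rw [mem_dVerts] at hw
    have := sum_filter_dEdges hWF hx' he₀ h1
      (fun e => (ends e).1 = w ∨ (ends e).2 = w)
      (by
        rintro (h | h)
        · exact hw.2.1 h.symm
        · exact hw.2.2 h.symm)
    unfold Crest.Agent.Helper62.S0466.star
    rw [this]
    exact hxs w hw.1
  · intro U hU hodd
    have hUA : U ⊆ A := fun w hw => (mem_dVerts.1 (hU hw)).1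
    have hu1 : (ends e₀).1 ∉ U := fun h => (mem_dVerts.1 (hU h)).2.1 rfl
    have hu2 : (ends e₀).2 ∉ U := fun h => (mem_dVerts.1 (hU h)).2.2 rfl
    have := sum_filter_dEdges hWF hx' he₀ h1
      (fun e => ((ends e).1 ∈ U ∧ (ends e).2 ∉ U) ∨ ((ends e).1 ∉ U ∧ (ends e).2 ∈ U))
      (by
        rintro (h | h)
        · exact hu1 h.1
        · exact hu2 h.2)
    unfold cut
    rw [this]
    exact hxc U hUA hodd

/-- Adding `e₀` to a perfect matching of the graph without the two ends of `e₀`. -/
theorem isPM_insert {ends : E → V × V} {A : Finset V} {F : Finset E}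
    {e₀ : E} (he₀ : e₀ ∈ F) {M : Finset E}
    (hM : IsPM ends (dVerts ends A e₀) (dEdges ends F e₀) M) :
    IsPM ends A F (insert e₀ M) := by
  obtain ⟨hMF, hMc⟩ := hM
  refine ⟨?_, ?_⟩
  · intro e he
    rcases Finset.mem_insert.1 he with rfl | he
    · exact he₀
    · exact (mem_dEdges.1 (hMF he)).1
  · intro w hw
    by_cases hwd : w ∈ dVerts ends A e₀
    · -- `e₀` does not touch `w`
      have hw' := mem_dVerts.1 hwd
      have : star ends (insert e₀ M) w = star ends M w := by
        unfold Crest.Agent.Helper62.S0466.star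
        rw [Finset.filter_insert, if_neg]
        rintro (h | h)
        · exact hw'.2.1 h.symm
        · exact hw'.2.2 h.symm
      rw [this]
      exact hMc w hwd
    · -- `w` is an end of `e₀`; no edge of `M` touches it
      have hwe : (ends e₀).1 = w ∨ (ends e₀).2 = w := by
        by_contra hcon
        exact hwd (mem_dVerts.2 ⟨hw, fun h => hcon (Or.inl h.symm), fun h => hcon (Or.inr h.symm)⟩)
      have : star ends (insert e₀ M) w = {e₀} := by
        unfold Crest.Agent.Helper62.S0466.star
        rw [Finset.filter_insert, if_pos hwe]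
        have hemp : M.filter (fun e => (ends e).1 = w ∨ (ends e).2 = w) = ∅ := by
          rw [Finset.filter_eq_empty_iff]
          intro e he hcon
          have hd := mem_dEdges.1 (hMF he)
          rcases hwe with h | h <;> rcases hcon with h' | h'
          · exact hd.2.1 (h'.trans h.symm)
          · exact hd.2.2.1 (h'.trans h.symm)
          · exact hd.2.2.2.1 (h'.trans h.symm)
          · exact hd.2.2.2.2 (h'.trans h.symm)
        rw [hemp]
        rfl
      rw [this, Finset.card_singleton]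

/-- Adding the edge back to the matchings of the graph without its two ends. -/
theorem PP_delPair_lift {ends : E → V × V} {A : Finset V} {F : Finset E} (hWF : WF ends A F)
    {e₀ : E} (he₀ : e₀ ∈ F) {y : E → ℝ}
    (hy : y ∈ PP ends (dVerts ends A e₀) (dEdges ends F e₀)) :
    y + ind {e₀} ∈ PP ends A F := by
  have hconv : Convex ℝ ((fun z : E → ℝ => z + ind {e₀}) ⁻¹' PP ends A F) :=
    (convex_convexHull ℝ _).translate_preimage_left _
  have hsub : ind '' {M : Finset E | IsPM ends (dVerts ends A e₀) (dEdges ends F e₀) M}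
      ⊆ (fun z : E → ℝ => z + ind {e₀}) ⁻¹' PP ends A F := by
    rintro _ ⟨M, hM, rfl⟩
    have hnot : e₀ ∉ M := fun h => not_mem_dEdges_self (hM.1 h)
    have heq : ind M + ind {e₀} = ind (insert e₀ M) := by
      funext e
      by_cases h : e = e₀
      · subst h; simp [ind, hnot]
      · simp [ind, h]
    show ind M + ind {e₀} ∈ PP ends A F
    rw [heq]
    exact subset_convexHull ℝ _ ⟨insert e₀ M, isPM_insert he₀ hM, rfl⟩
  exact convexHull_min hsub hconv hy

end Crest.Agent.Helper5.S0466
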